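import Vale.Agent.P322.Scalar.Covers

/-!
The Courtade-Kumar inequality: no Boolean function carries more information about the noisy
vector than a single coordinate.
-/

namespace Vale.Agent.Results.P322.CourtadeKumar

open Vale.Agent.P322

theorem result : ∀ (n : ℕ) (f : (Fin n → Bool) → Bool) (ε : ℝ), 0 ≤ ε → ε ≤ 1 / 2 →
    mutualInfo (outputLaw f ε) ≤ 1 - binEntBits ε :=
  courtadeKumar

end Vale.Agent.Results.P322.CourtadeKumar
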